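import Vale.Agent.P015.H542b.Comp

namespace Vale.Agent.Results.P015.PolynomialCurves

open Vale.Agent.P015 Filter Polynomial

/-- Walks through Gaussian primes and polynomial curves, for every `0 < β < 1/2`.
(1) If the integer polynomials `A`, `B` are not both constant, then at both ends of the curve
`A(x) + i B(x)` there are integers `x` such that no Gaussian prime is in the disc of radius
`(log |x|) ^ β` about `A(x) + i B(x)`.
(2) If `γ` is an infinite path of `G_D` and `t n` are reals which tend to `+∞` or to `-∞`, then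
for infinitely many `n` the distance of `γ n` to `A(t n) + i B(t n)` exceeds `(log |t n|) ^ β`.
(3) If `γ` is an infinite path of `G_D` and `P` is an integer polynomial, then for infinitely many
`n` the distance of `γ n` to every point `x + i P(x)`, `x` real, exceeds `(log |γ n|) ^ β`.
(4) All components of the graph induced by `G_D` on the Gaussian primes `z` within distance
`(log |z|) ^ β` of the graph of an integer polynomial `P` are finite. -/
theorem result (β : ℝ) (hβ0 : 0 < β) (hβ : β < 1 / 2) :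
    (∀ A B : ℤ[X], 0 < A.natDegree ∨ 0 < B.natDegree → ∀ N : ℤ,
      (∃ x : ℤ, N ≤ x ∧ ∀ z : GaussianInt, dist (GaussianInt.toComplex z)
        ⟨((A.eval x : ℤ) : ℝ), ((B.eval x : ℤ) : ℝ)⟩ ≤ Real.log |(x : ℝ)| ^ β → ¬ Prime z) ∧
      (∃ x : ℤ, x ≤ N ∧ ∀ z : GaussianInt, dist (GaussianInt.toComplex z)
        ⟨((A.eval x : ℤ) : ℝ), ((B.eval x : ℤ) : ℝ)⟩ ≤ Real.log |(x : ℝ)| ^ β → ¬ Prime z)) ∧
    (∀ (D : ℝ) (γ : ℕ → {z : GaussianInt // Prime z}), IsInfinitePath D γ →
      ∀ A B : ℤ[X], 0 < A.natDegree ∨ 0 < B.natDegree →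
        ∀ t : ℕ → ℝ, Tendsto t atTop atTop ∨ Tendsto t atTop atBot →
          ∃ᶠ n in atTop, Real.log |t n| ^ β <
            dist (GaussianInt.toComplex (γ n).1) ⟨aeval (t n) A, aeval (t n) B⟩) ∧
    (∀ (D : ℝ) (γ : ℕ → {z : GaussianInt // Prime z}), IsInfinitePath D γ →
      ∀ P : ℤ[X], ∃ᶠ n in atTop, ∀ x : ℝ,
        Real.log ‖GaussianInt.toComplex (γ n).1‖ ^ β <
          dist (GaussianInt.toComplex (γ n).1) ⟨x, aeval x P⟩) ∧
    (∀ (D : ℝ) (P : ℤ[X])
      (K : ((moatGraph D).induce (H542b.nearGraph P β)).ConnectedComponent), K.supp.Finite) :=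
  ⟨fun _ _ h N => H542b.discs h hβ0 hβ N,
    fun _ _ hγ _ _ h _ ht => H542b.ends h hβ0 hβ hγ ht,
    fun _ _ hγ P => H542b.graph P hβ0 hβ hγ,
    fun _ P K => H542b.components P hβ0 hβ K⟩

end Vale.Agent.Results.P015.PolynomialCurves
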