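import Vale.Agent.P015.H542.Walk

namespace Vale.Agent.Results.P015.SpeedComplexity

open Vale.Agent.P015 Filter

/-- Dimension, speed and complexity of walks through Gaussian primes with steps of length at
most `D`.
(1) Finite form: if after each time `n ∈ S` the sequence `g` makes a self-avoiding walk of `k`
steps of length at most `D` through Gaussian primes, and the points `g n`, `n ∈ S`, are distinct
and in a disc of radius `exp (k ^ η)`, then `#S` is at most the number of different words of these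
walks times `exp ((1 + η + ε) k ^ η)`.
(2) An infinite path of `G_D` visits a disc of radius `exp (k ^ η)` at most
`complexity * exp ((1 + η + ε) k ^ η)` times.
(3) A path of complexity at most `exp (k ^ θ)` visits every disc of large radius `R` at most
`R ^ (1 + θ + ε)` times.
(4) Such a path has `max_{m ≤ n} |γ m| > n ^ β` for all large `n` when `β (1 + θ) < 1`.
(5) If `|γ n| ≤ K n ^ β` for all large `n` and `β (1 + θ) < 1`, the complexity is larger than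
`exp (k ^ θ)` for all large `k`.
(6) The bound for prime `k`-tuples in `ℤ[i]` behind these statements. -/
theorem result :
    (∀ D η ε : ℝ, 0 < η → η < 1 → 0 < ε →
      ∀ᶠ k : ℕ in atTop, ∀ (g : ℕ → GaussianInt) (c : ℂ) (S : Finset ℕ), Set.InjOn g S →
        (∀ n ∈ S, dist (GaussianInt.toComplex (g n)) c ≤ Real.exp ((k : ℝ) ^ η) ∧
          (∀ t ≤ k, Prime (g (n + t))) ∧ (∀ s ≤ k, ∀ t ≤ k, g (n + s) = g (n + t) → s = t) ∧
          ∀ t < k, dist (GaussianInt.toComplex (g (n + t)))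
            (GaussianInt.toComplex (g (n + t + 1))) ≤ D) →
        (S.card : ℝ) ≤ ((stepWord g k '' (S : Set ℕ)).ncard : ℝ) *
          Real.exp ((1 + η + ε) * (k : ℝ) ^ η)) ∧
    (∀ D η ε : ℝ, 0 < η → η < 1 → 0 < ε →
      ∀ᶠ k : ℕ in atTop, ∀ γ : ℕ → {z : GaussianInt // Prime z}, IsInfinitePath D γ →
        ∀ (n₀ : ℕ) (c : ℂ) (S : Finset ℕ),
          (∀ n ∈ S, n₀ ≤ n ∧
            dist (GaussianInt.toComplex (γ n).1) c ≤ Real.exp ((k : ℝ) ^ η)) →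
          (S.card : ℝ) ≤ (complexity (fun n => (γ n).1) n₀ k : ℝ) *
            Real.exp ((1 + η + ε) * (k : ℝ) ^ η)) ∧
    (∀ (D : ℝ) (γ : ℕ → {z : GaussianInt // Prime z}), IsInfinitePath D γ →
      ∀ (θ : ℝ) (n₀ : ℕ), 0 < θ → θ < 1 →
        (∀ᶠ k : ℕ in atTop, (complexity (fun n => (γ n).1) n₀ k : ℝ) ≤ Real.exp ((k : ℝ) ^ θ)) →
        ∀ ε : ℝ, 0 < ε → ∀ᶠ R : ℝ in atTop, ∀ (c : ℂ) (S : Finset ℕ),
          (∀ n ∈ S, n₀ ≤ n ∧ dist (GaussianInt.toComplex (γ n).1) c ≤ R) →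
          (S.card : ℝ) ≤ R ^ (1 + θ + ε)) ∧
    (∀ (D : ℝ) (γ : ℕ → {z : GaussianInt // Prime z}), IsInfinitePath D γ →
      ∀ (θ β : ℝ) (n₀ : ℕ), 0 < θ → θ < 1 → 0 < β → β * (1 + θ) < 1 →
        (∀ᶠ k : ℕ in atTop, (complexity (fun n => (γ n).1) n₀ k : ℝ) ≤ Real.exp ((k : ℝ) ^ θ)) →
        ∀ᶠ n : ℕ in atTop, ∃ m ≤ n, (n : ℝ) ^ β < ‖GaussianInt.toComplex (γ m).1‖) ∧
    (∀ (D : ℝ) (γ : ℕ → {z : GaussianInt // Prime z}), IsInfinitePath D γ →
      ∀ (K θ β : ℝ) (n₀ : ℕ), 0 < θ → θ < 1 → 0 < β → β * (1 + θ) < 1 →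
        (∀ᶠ n : ℕ in atTop, ‖GaussianInt.toComplex (γ n).1‖ ≤ K * (n : ℝ) ^ β) →
        ∀ᶠ k : ℕ in atTop,
          Real.exp ((k : ℝ) ^ θ) < (complexity (fun n => (γ n).1) n₀ k : ℝ)) ∧
    (∀ η A ε : ℝ, 0 < η → η < 1 → 0 ≤ A → 0 < ε →
      ∀ᶠ k : ℕ in atTop, ∀ T : Finset GaussianInt, T.card = k →
        (∀ d ∈ T, ∀ d' ∈ T,
          dist (GaussianInt.toComplex d) (GaussianInt.toComplex d') ≤ (k : ℝ) ^ A) →
        ∀ (c : ℂ) (X : Finset GaussianInt),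
          (∀ z ∈ X, dist (GaussianInt.toComplex z) c ≤ Real.exp ((k : ℝ) ^ η) ∧
            ∀ d ∈ T, Prime (z + d)) →
          (X.card : ℝ) ≤ Real.exp ((1 + η + ε) * (k : ℝ) ^ η)) :=
  ⟨fun D _ _ h0 h1 h2 => H542.local_bound D h0 h1 h2,
    fun D _ _ h0 h1 h2 => H542.visits_bound D h0 h1 h2,
    fun _ _ hγ _ n₀ h0 h1 hcx _ hε => H542.visits_of_complexity hγ h0 h1 n₀ hcx hε,
    fun _ _ hγ _ _ n₀ h0 h1 hβ hβθ hcx => H542.speed_of_complexity hγ h0 h1 hβ hβθ n₀ hcx,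
    fun _ _ hγ _ _ _ n₀ h0 h1 hβ hβθ hs => H542.complexity_of_speed hγ h0 h1 hβ hβθ hs n₀,
    fun _ _ _ h0 h1 hA hε => H542.tuple_bound h0 h1 hA hε⟩

end Vale.Agent.Results.P015.SpeedComplexity
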